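import Vale.Agent.P013.Core
import Vale.Agent.P013.Final
import Vale.Agent.P013.PA4
import Vale.Agent.P013.ZFree

namespace Vale.Agent.Results.P013.A_full

theorem result : ∀ A : ℕ, ∃ C : ℝ, 0 < C ∧ ∀ k : ℕ, 1 ≤ k → ∀ n : ℕ, 1 ≤ n →
    n.primeFactors.card ≤ k → ∀ m : ℕ, C * (k : ℝ) ^ 2 / Real.log (k + 1) ^ A ≤ m →
      ∀ x : ℤ, ∃ i : ℕ, i < m ∧ Int.gcd (x + i) n = 1 := by
  obtain ⟨δ, C, h0, h1, h⟩ := Vale.Agent.P013.pa_of_zf Vale.Agent.P013.zf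
  exact Vale.Agent.P013.final_of_core (Vale.Agent.P013.core h0 h1 h)

end Vale.Agent.Results.P013.A_full
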